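import Vale.Agent.P039.Bn.H542.Rank

/-! Counting at the vertices of a web. -/

namespace Vale.Agent.P039.Bn.H542

open Finset

theorem loc1 : ∀ p : Fin 3 → Bool,
    3 * (if ∃ j, p j = true then 1 else 0) =
      (univ.filter fun i : Fin 3 => p (i + 1) = true ∨ p (i + 2) = true).card +
      (univ.filter fun i : Fin 3 => ¬ (p (i + 1) = true ∨ p (i + 2) = true) ∧
        ∃ j, p j = true).card := by
  decide

theorem loc2 : ∀ p : Fin 3 → Bool,
    3 * min 2 (univ.filter fun j : Fin 3 => p j = true).card +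
      (univ.filter fun i : Fin 3 => ¬ (p (i + 1) = true ∨ p (i + 2) = true) ∧
        ∃ j, p j = true).card =
      2 * (univ.filter fun i : Fin 3 => p (i + 1) = true ∨ p (i + 2) = true).card := by
  decide

section

variable {B W V : Type*} [Fintype B] [Fintype W]

theorem card_pairs (Q : Fin 3 → B → Prop) [∀ i b, Decidable (Q i b)] :
    (univ.filter fun p : Fin 3 × B => Q p.1 p.2).card = ∑ b, (univ.filter fun i => Q i b).card := by
  simp only [card_filter]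
  rw [Fintype.sum_prod_type, sum_comm]

theorem card_pairs' (e : Fin 3 → B ≃ W) (Q : Fin 3 → W → Prop) [∀ i b, Decidable (Q i b)] :
    (univ.filter fun p : Fin 3 × B => Q p.1 (e p.1 p.2)).card =
      ∑ w, (univ.filter fun i => Q i w).card := by
  simp only [card_filter]
  rw [Fintype.sum_prod_type, sum_comm]
  rw [sum_comm, sum_comm (s := (univ : Finset W))]
  apply sum_congr rfl
  intro i _
  exact Equiv.sum_comp (e i) (fun w => if Q i w then 1 else 0)

theorem four {α : Type*} [Fintype α] (H P Q : α → Prop) [DecidablePred H] [DecidablePred P]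
    [DecidablePred Q] (hP : ∀ p, H p → P p) (hQ : ∀ p, H p → Q p) :
    ∃ n00 n01 n10 n11 : ℕ,
      (univ.filter fun p => ¬ P p).card = n00 + n01 ∧
      (univ.filter fun p => ¬ Q p).card = n00 + n10 ∧
      (univ.filter fun p => ¬ H p ∧ P p).card = n10 + n11 ∧
      (univ.filter fun p => ¬ H p ∧ Q p).card = n01 + n11 ∧
      (univ.filter fun p => ¬ (P p ↔ Q p)).card = n01 + n10 := by
  refine ⟨(univ.filter fun p => ¬ P p ∧ ¬ Q p).card, (univ.filter fun p => ¬ P p ∧ Q p).card,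
    (univ.filter fun p => P p ∧ ¬ Q p).card, (univ.filter fun p => ¬ H p ∧ P p ∧ Q p).card,
    ?_, ?_, ?_, ?_, ?_⟩ <;>
  · simp only [card_filter]
    rw [← sum_add_distrib]
    apply sum_congr rfl
    intro p _
    have h1 := hP p
    have h2 := hQ p
    by_cases h3 : P p <;> by_cases h4 : Q p <;> by_cases h5 : H p <;> simp_all

variable [DecidableEq V]

theorem count (e : Fin 3 → B ≃ W) (c : Fin 3 → B → V) (cw : Fin 3 → W → V)
    (hcw : ∀ i j b, i ≠ j → cw j (e i b) = c j b)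
    (K : Finset V)
    (hcut : 4 ≤ (univ.filter fun p : Fin 3 × B =>
        ¬ ((∃ j, c j p.2 ∈ K) ↔ (∃ j, cw j (e p.1 p.2) ∈ K))).card ∨
      ((univ.filter fun b => ¬ ∃ j, c j b ∈ K).card = 1 ∧
        (univ.filter fun w => ¬ ∃ j, cw j w ∈ K).card = 0))
    (hrank : K.card + ((univ.filter fun b => ∃ j, c j b ∈ K).card +
      (univ.filter fun w => ∃ j, cw j w ∈ K).card) ≤
    (univ.filter fun p : Fin 3 × B => c (p.1 + 1) p.2 ∈ K ∨ c (p.1 + 2) p.2 ∈ K).card + 1) :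
    2 * K.card ≤ ∑ b, min 2 (univ.filter fun j => c j b ∈ K).card := by
  classical
  have hi1 : ∀ i : Fin 3, i ≠ i + 1 := by decide
  have hi2 : ∀ i : Fin 3, i ≠ i + 2 := by decide
  -- local identities
  have k1 : 3 * (univ.filter fun b => ∃ j, c j b ∈ K).card =
      (univ.filter fun p : Fin 3 × B => c (p.1 + 1) p.2 ∈ K ∨ c (p.1 + 2) p.2 ∈ K).card +
      (univ.filter fun p : Fin 3 × B => ¬ (c (p.1 + 1) p.2 ∈ K ∨ c (p.1 + 2) p.2 ∈ K) ∧
        ∃ j, c j p.2 ∈ K).card := by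
    rw [card_pairs (fun i b => c (i + 1) b ∈ K ∨ c (i + 2) b ∈ K),
      card_pairs (fun i b => ¬ (c (i + 1) b ∈ K ∨ c (i + 2) b ∈ K) ∧ ∃ j, c j b ∈ K),
      ← sum_add_distrib, card_filter, mul_sum]
    apply sum_congr rfl
    intro b _
    simpa using loc1 (fun j => decide (c j b ∈ K))
  have k2 : 3 * ∑ b, min 2 (univ.filter fun j => c j b ∈ K).card +
      (univ.filter fun p : Fin 3 × B => ¬ (c (p.1 + 1) p.2 ∈ K ∨ c (p.1 + 2) p.2 ∈ K) ∧
        ∃ j, c j p.2 ∈ K).card =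
      2 * (univ.filter fun p : Fin 3 × B => c (p.1 + 1) p.2 ∈ K ∨ c (p.1 + 2) p.2 ∈ K).card := by
    rw [card_pairs (fun i b => c (i + 1) b ∈ K ∨ c (i + 2) b ∈ K),
      card_pairs (fun i b => ¬ (c (i + 1) b ∈ K ∨ c (i + 2) b ∈ K) ∧ ∃ j, c j b ∈ K),
      mul_sum, mul_sum, ← sum_add_distrib]
    apply sum_congr rfl
    intro b _
    simpa using loc2 (fun j => decide (c j b ∈ K))
  have hH : ∀ p : Fin 3 × B, (c (p.1 + 1) p.2 ∈ K ∨ c (p.1 + 2) p.2 ∈ K) ↔
      (cw (p.1 + 1) (e p.1 p.2) ∈ K ∨ cw (p.1 + 2) (e p.1 p.2) ∈ K) := by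
    intro p
    rw [hcw _ _ _ (hi1 p.1), hcw _ _ _ (hi2 p.1)]
  have k3 : 3 * (univ.filter fun w => ∃ j, cw j w ∈ K).card =
      (univ.filter fun p : Fin 3 × B => c (p.1 + 1) p.2 ∈ K ∨ c (p.1 + 2) p.2 ∈ K).card +
      (univ.filter fun p : Fin 3 × B => ¬ (c (p.1 + 1) p.2 ∈ K ∨ c (p.1 + 2) p.2 ∈ K) ∧
        ∃ j, cw j (e p.1 p.2) ∈ K).card := by
    simp only [hH]
    rw [card_pairs' e (fun i w => cw (i + 1) w ∈ K ∨ cw (i + 2) w ∈ K),
      card_pairs' e (fun i w => ¬ (cw (i + 1) w ∈ K ∨ cw (i + 2) w ∈ K) ∧ ∃ j, cw j w ∈ K),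
      ← sum_add_distrib, card_filter, mul_sum]
    apply sum_congr rfl
    intro b _
    simpa using loc1 (fun j => decide (cw j b ∈ K))
  have k4 : (univ.filter fun p : Fin 3 × B => ¬ ∃ j, c j p.2 ∈ K).card =
      3 * (univ.filter fun b => ¬ ∃ j, c j b ∈ K).card := by
    rw [card_pairs (fun i b => ¬ ∃ j, c j b ∈ K), card_filter, mul_sum]
    apply sum_congr rfl
    intro b _
    by_cases h : ∃ j, c j b ∈ K
    · simp [h]
    · simp [h]
  have k5 : (univ.filter fun p : Fin 3 × B => ¬ ∃ j, cw j (e p.1 p.2) ∈ K).card =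
      3 * (univ.filter fun w => ¬ ∃ j, cw j w ∈ K).card := by
    rw [card_pairs' e (fun i w => ¬ ∃ j, cw j w ∈ K), card_filter, mul_sum]
    apply sum_congr rfl
    intro b _
    by_cases h : ∃ j, cw j b ∈ K
    · simp [h]
    · simp [h]
  -- the four kinds of edges
  have hP : ∀ p : Fin 3 × B, (c (p.1 + 1) p.2 ∈ K ∨ c (p.1 + 2) p.2 ∈ K) →
      ∃ j, c j p.2 ∈ K := by
    rintro p (h | h)
    · exact ⟨_, h⟩
    · exact ⟨_, h⟩
  have hQ : ∀ p : Fin 3 × B, (c (p.1 + 1) p.2 ∈ K ∨ c (p.1 + 2) p.2 ∈ K) →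
      ∃ j, cw j (e p.1 p.2) ∈ K := by
    intro p h
    rw [hH] at h
    rcases h with h | h
    · exact ⟨_, h⟩
    · exact ⟨_, h⟩
  obtain ⟨n00, n01, n10, n11, m1, m2, m3, m4, m5⟩ := four
    (fun p : Fin 3 × B => c (p.1 + 1) p.2 ∈ K ∨ c (p.1 + 2) p.2 ∈ K)
    (fun p : Fin 3 × B => ∃ j, c j p.2 ∈ K)
    (fun p : Fin 3 × B => ∃ j, cw j (e p.1 p.2) ∈ K) hP hQ
  omega

end

end Vale.Agent.P039.Bn.H542
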