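import Vale.Agent.P039.Bn.H542.Hall
import Vale.Agent.P039.Bz.Stmt
import Vale.Agent.P039.H635.Flow

/-! Two disjoint matchings of the black vertices other than the root with the faces away from the
root. -/

namespace Vale.Agent.P039.Bn.H542

open Finset

section

variable {B W V : Type} (M : PMap B W V)

theorem const_of_conn (hM : M.Conn) (z : V → ℚ)
    (hz : ∀ i b, z (M.c (i + 1) b) = z (M.c (i + 2) b)) (v v' : V) : z v = z v' := by
  have h0 : ∀ j b, z (M.c j b) = z (M.c 0 b) := by
    intro j b
    have a0 := hz 0 b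
    have a1 := hz 1 b
    have e1 : (1 : Fin 3) + 1 = 2 := rfl
    have e2 : (1 : Fin 3) + 2 = 0 := rfl
    rw [zero_add, zero_add] at a0
    rw [e1, e2] at a1
    fin_cases j
    · rfl
    · exact a0.trans a1
    · exact a1
  have h1 : ∀ b b', Relation.EqvGen (fun x y => ∃ j, M.c j x = M.c j y) b b' →
      z (M.c 0 b) = z (M.c 0 b') := by
    intro b b' h
    induction h with
    | rel x y h =>
      obtain ⟨j, hj⟩ := h
      rw [← h0 j x, ← h0 j y, hj]
    | refl x => rfl
    | symm x y _ ih => exact ih.symm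
    | trans x y w _ _ ih1 ih2 => exact ih1.trans ih2
  obtain ⟨j, b, rfl⟩ := M.surj v
  obtain ⟨j', b', rfl⟩ := M.surj v'
  rw [h0, h0 j', h1 b b' (hM b b')]

variable [Fintype B] [Fintype W] [Fintype V]

omit [Fintype W] [Fintype V] in
theorem cutc_coe [DecidableEq B] [DecidableEq W] (S : Finset B) (T : Finset W) :
    Bz.cutc M (S : Set B) (T : Set W) =
      (univ.filter fun p : Fin 3 × B => ¬ (p.2 ∈ S ↔ M.e p.1 p.2 ∈ T)).card := by
  unfold Bz.cutc
  congr 1
  ext p
  simp only [mem_filter, mem_univ, true_and, mem_coe]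

theorem hall_web [DecidableEq V] (hM : M.Sph) (h3 : Bz.C3 M) (h4 : Bz.C4 M) (b₀ : B)
    (K : Finset V) (hK : ∀ j, M.c j b₀ ∉ K) :
    2 * K.card ≤ ∑ b, min 2 (univ.filter fun j => M.c j b ∈ K).card := by
  classical
  refine hall_all M.e M.c M.cw (fun i j b h => M.cw_e j i h b) M.cls M.exact M.surj
    (fun z hz => const_of_conn M hM.conn z hz) ?_ ?_ b₀ K.card K le_rfl hK
  · intro S T hS hS'
    have h := h3 (S : Set B) (T : Set W) (Or.inl hS) (Or.inl (by
      rw [Set.nonempty_compl]
      intro h
      exact hS' (coe_eq_univ.1 h)))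
    rwa [cutc_coe] at h
  · intro S T h hS hT hS'
    rw [← cutc_coe] at h
    have h5 := h4 _ _ h
    have e1 : ((S : Set B)ᶜ).ncard = Fintype.card B - S.card := by
      rw [← coe_compl, Set.ncard_coe_finset, card_compl]
    have e2 : ((T : Set W)ᶜ).ncard = Fintype.card W - T.card := by
      rw [← coe_compl, Set.ncard_coe_finset, card_compl]
    rw [e1, e2, Set.ncard_coe_finset, Set.ncard_coe_finset] at h5
    have h6 : 0 < S.card := card_pos.2 hS
    have h7 : S.card < Fintype.card B := by
      rw [← card_univ]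
      exact card_lt_card (Finset.ssubset_univ_iff.2 hS')
    have h8 : T.card < Fintype.card W := by
      rw [← card_univ]
      exact card_lt_card (Finset.ssubset_univ_iff.2 hT)
    omega

omit [Fintype W] in
theorem card_off [DecidableEq V] [DecidableEq B] (hM : M.Sph) (b₀ : B) :
    (univ.filter fun v => ∀ j, M.c j b₀ ≠ v).card = Fintype.card (Bz.BOff b₀) := by
  have h1 : (univ.filter fun v => ∀ j, M.c j b₀ ≠ v) =
      (univ.image fun j => M.c j b₀)ᶜ := by
    ext v
    simp
  have h2 : (univ.image fun j => M.c j b₀).card = 3 := by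
    rw [card_image_of_injective _ (fun j j' h => M.cls _ _ _ _ h), card_univ, Fintype.card_fin]
  rw [h1, card_compl, h2, hM.card, Fintype.card_subtype, filter_ne', card_erase_of_mem
    (mem_univ _), card_univ]
  omega

omit [Fintype W] in
theorem mat_of (hM : M.Sph) (b₀ : B) (f : Bz.BOff b₀ → Fin 3)
    (hf : ∀ b, ∀ j, M.c j b₀ ≠ M.c (f b) b.1)
    (hi : Function.Injective (fun b : Bz.BOff b₀ => M.c (f b) b.1)) :
    Bz.Mat (Bz.Fo M b₀) f := by
  classical
  let φ : Bz.BOff b₀ → Bz.VOff M b₀ := fun b => ⟨M.c (f b) b.1, hf b⟩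
  have h1 : Function.Injective φ := by
    intro b b' h
    exact hi (congrArg Subtype.val h)
  have h2 : Fintype.card (Bz.BOff b₀) = Fintype.card (Bz.VOff M b₀) := by
    rw [← card_off M hM b₀, Fintype.card_subtype]
  have h3 : Function.Bijective φ := (Fintype.bijective_iff_injective_and_card φ).2 ⟨h1, h2⟩
  refine ⟨Equiv.ofBijective φ h3, fun b => ?_⟩
  unfold Bz.Fo
  rw [dif_pos (hf b)]
  rfl

end

theorem pairStmt : Bz.PairStmt := by
  intro B W V _ _ _ M hM h3 h4 b₀
  classical
  obtain ⟨f, g, hfg, hf, hg, hfi, hgi⟩ := H635.two_matchings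
    (fun (b : Bz.BOff b₀) j => M.c j b.1) (univ.filter fun v => ∀ j, M.c j b₀ ≠ v)
    (card_off M hM b₀) (by
      intro K hK
      have hK' : ∀ j, M.c j b₀ ∉ K := by
        intro j hj
        have := hK hj
        rw [mem_filter] at this
        exact this.2 j rfl
      refine (hall_web M hM h3 h4 b₀ K hK').trans ?_
      rw [← sum_filter_add_sum_filter_not univ (fun b => b ≠ b₀)]
      have e1 : ∑ b ∈ univ.filter (fun b => ¬ b ≠ b₀),
          min 2 (univ.filter fun j => M.c j b ∈ K).card = 0 := by
        apply sum_eq_zero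
        intro b hb
        rw [mem_filter, not_not] at hb
        rw [hb.2, filter_false_of_mem (fun j _ => hK' j), card_empty, Nat.min_zero]
      rw [e1, add_zero]
      rw [← sum_subtype_eq_sum_filter]
      apply le_of_eq
      rw [Finset.subtype_univ])
  refine ⟨f, g, mat_of M hM b₀ f (fun b j => ?_) hfi, mat_of M hM b₀ g (fun b j => ?_) hgi, hfg⟩
  · have := hf b
    rw [mem_filter] at this
    exact this.2 j
  · have := hg b
    rw [mem_filter] at this
    exact this.2 j

end Vale.Agent.P039.Bn.H542
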