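import Vale.Agent.P039.Bn.H542.Count

/-! The Hall condition for sets of faces which avoid a black vertex. -/

namespace Vale.Agent.P039.Bn.H542

open Finset

variable {B W V : Type*} [Fintype B] [Fintype W] [Fintype V] [DecidableEq B] [DecidableEq W]
  [DecidableEq V]

/-- connected set of faces -/
theorem conn_case (e : Fin 3 → B ≃ W) (c : Fin 3 → B → V) (cw : Fin 3 → W → V)
    (hcw : ∀ i j b, i ≠ j → cw j (e i b) = c j b)
    (hcls : ∀ j j' b b', c j b = c j' b' → j = j')
    (hex : ∀ j b b', c j b = c j b' →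
      Relation.EqvGen (fun x y => e (j + 1) y = e (j + 2) x) b b')
    (hsurj : ∀ v, ∃ j b, c j b = v)
    (hconn : ∀ z : V → ℚ, (∀ i b, z (c (i + 1) b) = z (c (i + 2) b)) → ∀ v v', z v = z v')
    (h3 : ∀ (S : Finset B) (T : Finset W), S.Nonempty → S ≠ univ →
      3 ≤ (univ.filter fun p : Fin 3 × B => ¬ (p.2 ∈ S ↔ e p.1 p.2 ∈ T)).card)
    (h4 : ∀ (S : Finset B) (T : Finset W),
      (univ.filter fun p : Fin 3 × B => ¬ (p.2 ∈ S ↔ e p.1 p.2 ∈ T)).card = 3 →
      S.Nonempty → T ≠ univ → S ≠ univ → S.card = 1 ∧ T.card = 0)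
    (b₀ : B) (K : Finset V) (hK : K.Nonempty) (hb₀ : ∀ j, c j b₀ ∉ K)
    (hKc : ∀ K₁ ⊆ K, K₁.Nonempty → K₁ ≠ K → ∃ b j j', c j b ∈ K₁ ∧ c j' b ∈ K ∧ c j' b ∉ K₁) :
    2 * K.card ≤ ∑ b, min 2 (univ.filter fun j => c j b ∈ K).card := by
  obtain ⟨v₁, hv₁⟩ := hK
  obtain ⟨j₁, b₁, hb₁⟩ := hsurj v₁
  have g1 : ∀ i : Fin 3, i + 1 ≠ i := by decide
  have g2 : ∀ i : Fin 3, i + 2 ≠ i := by decide
  have g3 : ∀ i : Fin 3, i + 2 + 1 = i := by decide
  have g4 : ∀ i : Fin 3, i + 1 + 2 = i := by decide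
  apply count e c cw hcw K
  · -- the cut
    have hw₁ : cw j₁ (e (j₁ + 1) b₁) ∈ K := by
      rw [hcw _ _ _ (g1 j₁), hb₁]; exact hv₁
    have hS1 : (univ.filter fun b => ¬ ∃ j, c j b ∈ K).Nonempty := by
      refine ⟨b₀, ?_⟩
      rw [mem_filter]
      refine ⟨mem_univ _, ?_⟩
      rintro ⟨j, hj⟩
      exact hb₀ j hj
    have hS2 : (univ.filter fun b => ¬ ∃ j, c j b ∈ K) ≠ (univ : Finset B) := by
      intro h
      have := mem_univ b₁
      rw [← h, mem_filter] at this
      exact this.2 ⟨j₁, by rw [hb₁]; exact hv₁⟩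
    have hT : (univ.filter fun w => ¬ ∃ j, cw j w ∈ K) ≠ (univ : Finset W) := by
      intro h
      have := mem_univ (e (j₁ + 1) b₁)
      rw [← h, mem_filter] at this
      exact this.2 ⟨j₁, hw₁⟩
    have e1 : (univ.filter fun p : Fin 3 × B =>
        ¬ (p.2 ∈ (univ.filter fun b => ¬ ∃ j, c j b ∈ K) ↔
          e p.1 p.2 ∈ (univ.filter fun w => ¬ ∃ j, cw j w ∈ K))) =
        (univ.filter fun p : Fin 3 × B =>
        ¬ ((∃ j, c j p.2 ∈ K) ↔ (∃ j, cw j (e p.1 p.2) ∈ K))) := by
      apply filter_congr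
      intro p _
      simp only [mem_filter, mem_univ, true_and]
      tauto
    have h5 := h3 _ (univ.filter fun w => ¬ ∃ j, cw j w ∈ K) hS1 hS2
    have h6 := h4 (univ.filter fun b => ¬ ∃ j, c j b ∈ K)
      (univ.filter fun w => ¬ ∃ j, cw j w ∈ K)
    rw [e1] at h5 h6
    by_cases h7 : (univ.filter fun p : Fin 3 × B =>
        ¬ ((∃ j, c j p.2 ∈ K) ↔ (∃ j, cw j (e p.1 p.2) ∈ K))).card = 3
    · right
      exact h6 h7 hS1 hT hS2
    · left
      omega
  · -- the rank
    apply rank_le e c cw hcw hconn K ⟨c 0 b₀, hb₀ 0⟩ b₁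
    intro x y hxy hx
    have key : ∀ j b b', Relation.EqvGen (fun x y => e (j + 1) y = e (j + 2) x) b b' →
        c j b = c j b' ∧ (c j b ∈ K → x b = x b') := by
      intro j b b' h
      induction h with
      | rel a a' h =>
        have hc : c j a = c j a' := by
          rw [← hcw (j + 2) j a (g2 j), ← h, hcw (j + 1) j a' (g1 j)]
        refine ⟨hc, fun ha => ?_⟩
        rw [hxy (j + 2) a (Or.inl (by rw [g3]; exact ha)), ← h]
        exact (hxy (j + 1) a' (Or.inr (by rw [g4, ← hc]; exact ha))).symm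
      | refl a => exact ⟨rfl, fun _ => rfl⟩
      | symm a a' _ ih => exact ⟨ih.1.symm, fun ha => (ih.2 (by rw [ih.1]; exact ha)).symm⟩
      | trans a a' a'' _ _ ih1 ih2 =>
        exact ⟨ih1.1.trans ih2.1, fun ha => (ih1.2 ha).trans (ih2.2 (by rw [← ih1.1]; exact ha))⟩
    have hK1 : K.filter (fun v => ∀ j b, c j b = v → x b = 0) = K := by
      by_contra hne
      obtain ⟨b, j, j', h5, h6, h7⟩ := hKc _ (filter_subset _ _) ⟨v₁, by
        rw [mem_filter]
        refine ⟨hv₁, ?_⟩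
        intro j b hjb
        have hj : j = j₁ := hcls _ _ _ _ (hjb.trans hb₁.symm)
        subst hj
        rw [← hx]
        exact (key j b b₁ (hex j b b₁ (hjb.trans hb₁.symm))).2 (by rw [hjb]; exact hv₁)⟩ hne
      rw [mem_filter] at h5
      apply h7
      rw [mem_filter]
      refine ⟨h6, ?_⟩
      intro j'' b'' h8
      have hj : j'' = j' := hcls _ _ _ _ h8
      subst hj
      rw [← h5.2 j b rfl]
      exact (key j'' b'' b (hex j'' b'' b h8)).2 (by rw [h8]; exact h6)
    have hxz : ∀ b, (∃ j, c j b ∈ K) → x b = 0 := by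
      rintro b ⟨j, hj⟩
      rw [← hK1, mem_filter] at hj
      exact hj.2 j b rfl
    refine ⟨hxz, ?_⟩
    rintro w ⟨j, hj⟩
    have h8 : c j ((e (j + 1)).symm w) ∈ K := by
      rw [← hcw (j + 1) j _ (g1 j), Equiv.apply_symm_apply]
      exact hj
    have h9 := hxz ((e (j + 1)).symm w) ⟨j, h8⟩
    have h10 := hxy (j + 1) ((e (j + 1)).symm w) (Or.inr (by rw [g4]; exact h8))
    rw [Equiv.apply_symm_apply] at h10
    rw [← h10, h9]

/-- The Hall condition. -/
theorem hall_all (e : Fin 3 → B ≃ W) (c : Fin 3 → B → V) (cw : Fin 3 → W → V)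
    (hcw : ∀ i j b, i ≠ j → cw j (e i b) = c j b)
    (hcls : ∀ j j' b b', c j b = c j' b' → j = j')
    (hex : ∀ j b b', c j b = c j b' →
      Relation.EqvGen (fun x y => e (j + 1) y = e (j + 2) x) b b')
    (hsurj : ∀ v, ∃ j b, c j b = v)
    (hconn : ∀ z : V → ℚ, (∀ i b, z (c (i + 1) b) = z (c (i + 2) b)) → ∀ v v', z v = z v')
    (h3 : ∀ (S : Finset B) (T : Finset W), S.Nonempty → S ≠ univ →
      3 ≤ (univ.filter fun p : Fin 3 × B => ¬ (p.2 ∈ S ↔ e p.1 p.2 ∈ T)).card)
    (h4 : ∀ (S : Finset B) (T : Finset W),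
      (univ.filter fun p : Fin 3 × B => ¬ (p.2 ∈ S ↔ e p.1 p.2 ∈ T)).card = 3 →
      S.Nonempty → T ≠ univ → S ≠ univ → S.card = 1 ∧ T.card = 0)
    (b₀ : B) (n : ℕ) : ∀ (K : Finset V), K.card ≤ n → (∀ j, c j b₀ ∉ K) →
    2 * K.card ≤ ∑ b, min 2 (univ.filter fun j => c j b ∈ K).card := by
  induction n with
  | zero =>
    intro K hK _
    omega
  | succ n ih =>
    intro K hK hb₀
    by_cases hne : K.Nonempty
    swap
    · rw [not_nonempty_iff_eq_empty] at hne
      rw [hne, card_empty]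
      omega
    by_cases hc : ∀ K₁ ⊆ K, K₁.Nonempty → K₁ ≠ K → ∃ b j j', c j b ∈ K₁ ∧ c j' b ∈ K ∧ c j' b ∉ K₁
    · exact conn_case e c cw hcw hcls hex hsurj hconn h3 h4 b₀ K hne hb₀ hc
    · push Not at hc
      obtain ⟨K₁, h5, h6, h7, h8⟩ := hc
      have hlt : K₁.card < K.card := card_lt_card (Finset.ssubset_iff_subset_ne.2 ⟨h5, h7⟩)
      have hsd : (K \ K₁).card = K.card - K₁.card := card_sdiff_of_subset h5
      have hpos : 0 < K₁.card := card_pos.2 h6
      have i1 := ih K₁ (by omega) (fun j h => hb₀ j (h5 h))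
      have i2 := ih (K \ K₁) (by omega) (fun j h => hb₀ j (mem_sdiff.1 h).1)
      have i3 : ∑ b, min 2 (univ.filter fun j => c j b ∈ K).card =
          ∑ b, min 2 (univ.filter fun j => c j b ∈ K₁).card +
          ∑ b, min 2 (univ.filter fun j => c j b ∈ K \ K₁).card := by
        rw [← sum_add_distrib]
        apply sum_congr rfl
        intro b _
        by_cases hb : ∃ j, c j b ∈ K₁
        · obtain ⟨j, hj⟩ := hb
          have e1 : (univ.filter fun j => c j b ∈ K) = (univ.filter fun j => c j b ∈ K₁) := by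
            apply filter_congr
            intro j' _
            exact ⟨fun h => h8 b j j' hj h, fun h => h5 h⟩
          have e2 : (univ.filter fun j => c j b ∈ K \ K₁) = ∅ := by
            apply filter_false_of_mem
            intro j' _ h
            rw [mem_sdiff] at h
            exact h.2 (h8 b j j' hj h.1)
          rw [e1, e2, card_empty, Nat.min_zero, add_zero]
        · have e1 : (univ.filter fun j => c j b ∈ K) = (univ.filter fun j => c j b ∈ K \ K₁) := by
            apply filter_congr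
            intro j' _
            rw [mem_sdiff]
            exact ⟨fun h => ⟨h, fun h' => hb ⟨j', h'⟩⟩, fun h => h.1⟩
          have e2 : (univ.filter fun j => c j b ∈ K₁) = ∅ := by
            apply filter_false_of_mem
            intro j' _ h
            exact hb ⟨j', h⟩
          rw [e1, e2, card_empty, Nat.min_zero, zero_add]
      omega

end Vale.Agent.P039.Bn.H542
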