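import Mathlib.LinearAlgebra.Dimension.Constructions
import Mathlib.LinearAlgebra.FiniteDimensional.Basic
import Mathlib.Algebra.BigOperators.Fin
import Mathlib.Algebra.BigOperators.Ring.Finset
import Mathlib.Algebra.Order.BigOperators.Ring.Finset
import Mathlib.Data.Fintype.BigOperators
import Mathlib.Data.Rat.Lemmas
import Mathlib.Tactic.Ring
import Mathlib.Tactic.Linarith

/-! Rank inequality for a set of faces of a web. -/

namespace Vale.Agent.P039.Bn.H542

open Finset

variable {B W V : Type*} [Fintype B] [Fintype W]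

/-- boundaries of faces are orthogonal to cuts -/
theorem orth (e : Fin 3 → B ≃ W) (c : Fin 3 → B → V) (cw : Fin 3 → W → V)
    (hcw : ∀ i j b, i ≠ j → cw j (e i b) = c j b) (z : V → ℚ) (x : B → ℚ) (y : W → ℚ) :
    ∑ p : Fin 3 × B, (z (c (p.1 + 1) p.2) - z (c (p.1 + 2) p.2)) * (x p.2 - y (e p.1 p.2)) = 0 := by
  have h1 : ∑ p : Fin 3 × B, (z (c (p.1 + 1) p.2) - z (c (p.1 + 2) p.2)) * x p.2 = 0 := by
    rw [Fintype.sum_prod_type, sum_comm]
    apply sum_eq_zero
    intro b _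
    rw [Fin.sum_univ_three]
    have e1 : (1 : Fin 3) + 1 = 2 := rfl
    have e2 : (2 : Fin 3) + 2 = 1 := rfl
    have e3 : (2 : Fin 3) + 1 = 0 := rfl
    have e4 : (1 : Fin 3) + 2 = 0 := rfl
    simp only [zero_add, e1, e2, e3, e4]
    ring
  have h2 : ∑ p : Fin 3 × B, (z (c (p.1 + 1) p.2) - z (c (p.1 + 2) p.2)) * y (e p.1 p.2) = 0 := by
    rw [Fintype.sum_prod_type]
    have h3 : ∀ i : Fin 3, ∑ b, (z (c (i + 1) b) - z (c (i + 2) b)) * y (e i b) =
        ∑ w, (z (cw (i + 1) w) - z (cw (i + 2) w)) * y w := by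
      intro i
      rw [← Equiv.sum_comp (e i)]
      apply sum_congr rfl
      intro b _
      rw [hcw i (i + 1) b (by revert i; decide), hcw i (i + 2) b (by revert i; decide)]
    simp only [h3]
    rw [sum_comm]
    apply sum_eq_zero
    intro b _
    rw [Fin.sum_univ_three]
    have e1 : (1 : Fin 3) + 1 = 2 := rfl
    have e2 : (2 : Fin 3) + 2 = 1 := rfl
    have e3 : (2 : Fin 3) + 1 = 0 := rfl
    have e4 : (1 : Fin 3) + 2 = 0 := rfl
    simp only [zero_add, e1, e2, e3, e4]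
    ring
  have h4 : ∀ p : Fin 3 × B,
      (z (c (p.1 + 1) p.2) - z (c (p.1 + 2) p.2)) * (x p.2 - y (e p.1 p.2)) =
      (z (c (p.1 + 1) p.2) - z (c (p.1 + 2) p.2)) * x p.2 -
      (z (c (p.1 + 1) p.2) - z (c (p.1 + 2) p.2)) * y (e p.1 p.2) := fun p => by ring
  simp only [h4]
  rw [sum_sub_distrib, h1, h2, sub_zero]

variable [Fintype V] [DecidableEq V]

/-- The rank inequality: `#K + V_H ≤ E_H + 1`. -/
theorem rank_le (e : Fin 3 → B ≃ W) (c : Fin 3 → B → V) (cw : Fin 3 → W → V)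
    (hcw : ∀ i j b, i ≠ j → cw j (e i b) = c j b)
    (hconn : ∀ z : V → ℚ, (∀ i b, z (c (i + 1) b) = z (c (i + 2) b)) → ∀ v v', z v = z v')
    (K : Finset V) (hK : ∃ v, v ∉ K) (b₁ : B)
    (hKc : ∀ (x : B → ℚ) (y : W → ℚ),
      (∀ i b, (c (i + 1) b ∈ K ∨ c (i + 2) b ∈ K) → x b = y (e i b)) → x b₁ = 0 →
      (∀ b, (∃ j, c j b ∈ K) → x b = 0) ∧ (∀ w, (∃ j, cw j w ∈ K) → y w = 0)) :
    K.card + ((univ.filter fun b => ∃ j, c j b ∈ K).card +
      (univ.filter fun w => ∃ j, cw j w ∈ K).card) ≤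
    (univ.filter fun p : Fin 3 × B => c (p.1 + 1) p.2 ∈ K ∨ c (p.1 + 2) p.2 ∈ K).card + 1 := by
  classical
  let F : ((V → ℚ) × (B → ℚ) × (W → ℚ)) →ₗ[ℚ]
      ({p : Fin 3 × B // c (p.1 + 1) p.2 ∈ K ∨ c (p.1 + 2) p.2 ∈ K} → ℚ) × ℚ ×
      ({v : V // v ∉ K} → ℚ) × ({b : B // ¬ ∃ j, c j b ∈ K} → ℚ) ×
      ({w : W // ¬ ∃ j, cw j w ∈ K} → ℚ) :=
    { toFun := fun u => (fun p => (u.1 (c (p.1.1 + 1) p.1.2) - u.1 (c (p.1.1 + 2) p.1.2)) +
          (u.2.1 p.1.2 - u.2.2 (e p.1.1 p.1.2)), u.2.1 b₁, fun v => u.1 v.1,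
          fun b => u.2.1 b.1, fun w => u.2.2 w.1)
      map_add' := by
        intro u v
        simp only [Prod.fst_add, Prod.snd_add, Pi.add_apply, Prod.mk_add_mk, Prod.mk.injEq]
        refine ⟨?_, trivial, rfl, rfl, rfl⟩
        funext p
        simp only [Pi.add_apply]
        ring
      map_smul' := by
        intro a u
        simp only [Prod.smul_fst, Prod.smul_snd, Pi.smul_apply, smul_eq_mul, RingHom.id_apply,
          Prod.smul_mk, Prod.mk.injEq]
        refine ⟨?_, trivial, rfl, rfl, rfl⟩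
        funext p
        simp only [Pi.smul_apply, smul_eq_mul]
        ring }
  have hF : Function.Injective F := by
    rw [← LinearMap.ker_eq_bot, LinearMap.ker_eq_bot']
    rintro ⟨z, x, y⟩ h
    have g1 : ∀ p : {p : Fin 3 × B // c (p.1 + 1) p.2 ∈ K ∨ c (p.1 + 2) p.2 ∈ K},
        (z (c (p.1.1 + 1) p.1.2) - z (c (p.1.1 + 2) p.1.2)) + (x p.1.2 - y (e p.1.1 p.1.2)) = 0 :=
      fun p => congrFun (congrArg Prod.fst h) p
    have g2 : x b₁ = 0 := congrArg (fun t => t.2.1) h
    have g3 : ∀ v : V, v ∉ K → z v = 0 := fun v hv =>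
      congrFun (congrArg (fun t => t.2.2.1) h) ⟨v, hv⟩
    have g4 : ∀ b : B, (¬ ∃ j, c j b ∈ K) → x b = 0 := fun b hb =>
      congrFun (congrArg (fun t => t.2.2.2.1) h) ⟨b, hb⟩
    have g5 : ∀ w : W, (¬ ∃ j, cw j w ∈ K) → y w = 0 := fun w hw =>
      congrFun (congrArg (fun t => t.2.2.2.2) h) ⟨w, hw⟩
    -- the squares vanish
    have g6 : ∑ p : Fin 3 × B, (z (c (p.1 + 1) p.2) - z (c (p.1 + 2) p.2)) ^ 2 = 0 := by
      have g7 := orth e c cw hcw z x y
      have g8 : ∀ p : Fin 3 × B, (z (c (p.1 + 1) p.2) - z (c (p.1 + 2) p.2)) ^ 2 =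
          - ((z (c (p.1 + 1) p.2) - z (c (p.1 + 2) p.2)) * (x p.2 - y (e p.1 p.2))) := by
        intro p
        by_cases hp : c (p.1 + 1) p.2 ∈ K ∨ c (p.1 + 2) p.2 ∈ K
        · have := g1 ⟨p, hp⟩
          simp only at this
          have e1 : x p.2 - y (e p.1 p.2) = - (z (c (p.1 + 1) p.2) - z (c (p.1 + 2) p.2)) := by
            linarith
          rw [e1]
          ring
        · rw [not_or] at hp
          rw [g3 _ hp.1, g3 _ hp.2]
          ring
      simp only [g8]
      rw [sum_neg_distrib, g7, neg_zero]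
    have g9 : ∀ i b, z (c (i + 1) b) = z (c (i + 2) b) := by
      intro i b
      have := (sum_eq_zero_iff_of_nonneg (fun p _ => sq_nonneg _)).1 g6 (i, b) (mem_univ _)
      have h2 := pow_eq_zero_iff (two_ne_zero) |>.1 this
      exact sub_eq_zero.1 h2
    obtain ⟨v₀, hv₀⟩ := hK
    have gz : z = 0 := by
      funext v
      rw [hconn z g9 v v₀]
      exact g3 _ hv₀
    have g10 := hKc x y (by
      intro i b hib
      have := g1 ⟨(i, b), hib⟩
      simp only [gz, Pi.zero_apply, sub_zero, zero_add] at this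
      exact sub_eq_zero.1 this) g2
    have gx : x = 0 := by
      funext b
      by_cases hb : ∃ j, c j b ∈ K
      · exact g10.1 b hb
      · exact g4 b hb
    have gy : y = 0 := by
      funext w
      by_cases hw : ∃ j, cw j w ∈ K
      · exact g10.2 w hw
      · exact g5 w hw
    rw [gz, gx, gy]
    rfl
  have h1 := LinearMap.finrank_le_finrank_of_injective hF
  rw [Module.finrank_prod, Module.finrank_prod, Module.finrank_prod, Module.finrank_prod,
    Module.finrank_prod, Module.finrank_prod, Module.finrank_fintype_fun_eq_card,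
    Module.finrank_fintype_fun_eq_card, Module.finrank_fintype_fun_eq_card,
    Module.finrank_fintype_fun_eq_card, Module.finrank_fintype_fun_eq_card,
    Module.finrank_fintype_fun_eq_card, Module.finrank_fintype_fun_eq_card,
    Module.finrank_self, Fintype.card_subtype, Fintype.card_subtype, Fintype.card_subtype,
    Fintype.card_subtype] at h1
  have h2 := card_filter_add_card_filter_not (s := (univ : Finset V)) (fun v => v ∈ K)
  have h3 := card_filter_add_card_filter_not (s := (univ : Finset B)) (fun b => ∃ j, c j b ∈ K)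
  have h4 := card_filter_add_card_filter_not (s := (univ : Finset W)) (fun w => ∃ j, cw j w ∈ K)
  have h5 : (univ.filter fun v => v ∈ K) = K := by ext; simp
  rw [h5, card_univ] at h2
  rw [card_univ] at h3 h4
  omega

end Vale.Agent.P039.Bn.H542
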